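import Vale.Agent.P267.H770.Final.Stmt
import Vale.Agent.P267.H998.Bridge

/-!
# P267: the final statement (charts in `ℂ × ℂ`) follows from the working one (charts in `Fin 2 → ℂ`)
-/

open scoped Manifold ContDiff Topology
open Vale.Agent.P272.K Set

noncomputable section

namespace Vale.Agent.P267.Final

/-- The linear map `ℂ × ℂ → ℂ²`. -/
def T : (ℂ × ℂ) ≃L[ℂ] Cm 2 := (ContinuousLinearEquiv.finTwoArrow ℂ ℂ).symm

/-- The same over `ℝ`. -/
def TR : (ℂ × ℂ) ≃L[ℝ] Cm 2 := (ContinuousLinearEquiv.finTwoArrow ℝ ℂ).symm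

/-- The same as a homeomorphism. -/
def TH : OpenPartialHomeomorph (ℂ × ℂ) (Cm 2) := T.toHomeomorph.toOpenPartialHomeomorph

theorem T_zero (z : ℂ × ℂ) : T z 0 = z.1 := rfl
theorem T_one (z : ℂ × ℂ) : T z 1 = z.2 := rfl
theorem TR_apply (z : ℂ × ℂ) : TR z = T z := rfl
theorem TR_symm_apply (z : Cm 2) : TR.symm z = T.symm z := rfl

variable {X : Type*} [TopologicalSpace X]

/-- The chart with values in `ℂ²`. -/
def tr (e : OpenPartialHomeomorph X (ℂ × ℂ)) : Chart 2 X := e.trans TH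

theorem tr_apply (e : OpenPartialHomeomorph X (ℂ × ℂ)) (x : X) : tr e x = T (e x) := rfl
theorem tr_symm_apply (e : OpenPartialHomeomorph X (ℂ × ℂ)) (w : Cm 2) :
    (tr e).symm w = e.symm (T.symm w) := rfl
theorem tr_source (e : OpenPartialHomeomorph X (ℂ × ℂ)) : (tr e).source = e.source := by
  simp [tr, TH]
theorem tr_target (e : OpenPartialHomeomorph X (ℂ × ℂ)) : (tr e).target = T.symm ⁻¹' e.target := by
  ext w
  simp [tr, TH]

variable [ChartedSpace (ℂ × ℂ) X]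

variable (X) in
/-- The same surface with charts in `Fin 2 → ℂ`. -/
@[reducible] def cs : ChartedSpace (Cm 2) X where
  atlas := tr '' atlas (ℂ × ℂ) X
  chartAt x := tr (chartAt (ℂ × ℂ) x)
  mem_chart_source x := by
    rw [tr_source]
    exact mem_chart_source _ x
  chart_mem_atlas x := mem_image_of_mem _ (chart_mem_atlas _ x)

attribute [local instance] cs

theorem tr_mem {e : OpenPartialHomeomorph X (ℂ × ℂ)} (he : e ∈ atlas (ℂ × ℂ) X) :
    tr e ∈ atlas (Cm 2) X := mem_image_of_mem _ he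

theorem mem_cs {e' : Chart 2 X} (h : e' ∈ atlas (Cm 2) X) :
    ∃ e ∈ atlas (ℂ × ℂ) X, tr e = e' := h

omit [ChartedSpace (ℂ × ℂ) X] in
theorem tr_change (e e' : OpenPartialHomeomorph X (ℂ × ℂ)) (w : Cm 2) :
    (((tr e).symm.trans (tr e')) w) = T ((e.symm.trans e') (T.symm w)) := rfl

omit [ChartedSpace (ℂ × ℂ) X] in
theorem tr_change_source (e e' : OpenPartialHomeomorph X (ℂ × ℂ)) :
    ((tr e).symm.trans (tr e')).source = T.symm ⁻¹' (e.symm.trans e').source := by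
  ext w
  simp only [OpenPartialHomeomorph.trans_source, OpenPartialHomeomorph.symm_source, tr_target,
    tr_source, mem_inter_iff, mem_preimage]
  rfl

theorem isManifold_cs [IsManifold 𝓘(ℂ, ℂ × ℂ) ω X] : IsManifold 𝓘(ℂ, Cm 2) ω X := by
  apply isManifold_of_contDiffOn
  rintro e₁ e₂ h₁ h₂
  obtain ⟨e, he, rfl⟩ := mem_cs h₁
  obtain ⟨e', he', rfl⟩ := mem_cs h₂
  have h : ContDiffOn ℂ ω (𝓘(ℂ, ℂ × ℂ) ∘ (e.symm.trans e') ∘ 𝓘(ℂ, ℂ × ℂ).symm)
      (𝓘(ℂ, ℂ × ℂ).symm ⁻¹' (e.symm.trans e').source ∩ range 𝓘(ℂ, ℂ × ℂ)) :=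
    (HasGroupoid.compatible (G := contDiffGroupoid ω 𝓘(ℂ, ℂ × ℂ)) he he').1
  simp only [modelWithCornersSelf_coe, modelWithCornersSelf_coe_symm, Function.comp_id,
    Function.id_comp, preimage_id, range_id, inter_univ] at h ⊢
  rw [tr_change_source]
  have h2 : ContDiffOn ℂ ω (fun w => T ((e.symm.trans e') (T.symm w)))
      (T.symm ⁻¹' (e.symm.trans e').source) := by
    refine T.contDiff.comp_contDiffOn (h.comp T.symm.contDiff.contDiffOn ?_)
    intro w hw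
    exact hw
  exact h2

/-- A complex surface is a real manifold. -/
theorem isManifold_real [IsManifold 𝓘(ℂ, ℂ × ℂ) ω X] : IsManifold 𝓘(ℝ, ℂ × ℂ) ω X := by
  apply isManifold_of_contDiffOn
  rintro e e' he he'
  have h : ContDiffOn ℂ ω (𝓘(ℂ, ℂ × ℂ) ∘ (e.symm.trans e') ∘ 𝓘(ℂ, ℂ × ℂ).symm)
      (𝓘(ℂ, ℂ × ℂ).symm ⁻¹' (e.symm.trans e').source ∩ range 𝓘(ℂ, ℂ × ℂ)) :=
    (HasGroupoid.compatible (G := contDiffGroupoid ω 𝓘(ℂ, ℂ × ℂ)) he he').1
  simp only [modelWithCornersSelf_coe, modelWithCornersSelf_coe_symm, Function.comp_id,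
    Function.id_comp, preimage_id, range_id, inter_univ] at h ⊢
  exact h.restrict_scalars ℝ

end Vale.Agent.P267.Final
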