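import Vale.Agent.P267.H770.Final.Br1

/-!
# The identity map between the two charted structures
-/

open scoped Manifold ContDiff Topology
open Vale.Agent.P272.K Set

noncomputable section

namespace Vale.Agent.P267.Final

variable {X : Type*} [TopologicalSpace X] [ChartedSpace (ℂ × ℂ) X]

attribute [local instance] cs

theorem extChart_cs (x : X) (y : X) : extChartAt 𝓘(ℂ, Cm 2) x y = T (chartAt (ℂ × ℂ) x y) := rfl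

theorem hasMFDerivAt_id (x : X) :
    HasMFDerivAt 𝓘(ℂ, ℂ × ℂ) 𝓘(ℂ, Cm 2) (id : X → X) x (T : (ℂ × ℂ) →L[ℂ] Cm 2) := by
  refine ⟨continuousAt_id, ?_⟩
  have h1 : HasFDerivAt (fun z : ℂ × ℂ => T z) (T : (ℂ × ℂ) →L[ℂ] Cm 2)
      (extChartAt 𝓘(ℂ, ℂ × ℂ) x x) := T.hasFDerivAt
  refine (h1.congr_of_eventuallyEq ?_).hasFDerivWithinAt
  filter_upwards [(chartAt (ℂ × ℂ) x).open_target.mem_nhds
    ((chartAt (ℂ × ℂ) x).map_source (mem_chart_source _ x))] with z hz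
  change T (chartAt (ℂ × ℂ) x ((chartAt (ℂ × ℂ) x).symm z)) = T z
  rw [(chartAt (ℂ × ℂ) x).right_inv hz]

theorem hasMFDerivAt_id_symm (x : X) :
    HasMFDerivAt 𝓘(ℂ, Cm 2) 𝓘(ℂ, ℂ × ℂ) (id : X → X) x (T.symm : Cm 2 →L[ℂ] (ℂ × ℂ)) := by
  refine ⟨continuousAt_id, ?_⟩
  have h1 : HasFDerivAt (fun z : Cm 2 => T.symm z) (T.symm : Cm 2 →L[ℂ] (ℂ × ℂ))
      (extChartAt 𝓘(ℂ, Cm 2) x x) := T.symm.hasFDerivAt
  refine (h1.congr_of_eventuallyEq ?_).hasFDerivWithinAt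
  filter_upwards [(chartAt (Cm 2) x).open_target.mem_nhds
    ((chartAt (Cm 2) x).map_source (mem_chart_source _ x))] with z hz
  change chartAt (ℂ × ℂ) x ((chartAt (ℂ × ℂ) x).symm (T.symm z)) = T.symm z
  refine (chartAt (ℂ × ℂ) x).right_inv ?_
  have h2 : z ∈ (tr (chartAt (ℂ × ℂ) x)).target := hz
  rw [tr_target] at h2
  exact h2

theorem hasMFDerivAt_idR (x : X) :
    HasMFDerivAt 𝓘(ℝ, ℂ × ℂ) 𝓘(ℝ, Cm 2) (id : X → X) x (TR : (ℂ × ℂ) →L[ℝ] Cm 2) := by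
  refine ⟨continuousAt_id, ?_⟩
  have h1 : HasFDerivAt (fun z : ℂ × ℂ => TR z) (TR : (ℂ × ℂ) →L[ℝ] Cm 2)
      (extChartAt 𝓘(ℝ, ℂ × ℂ) x x) := TR.hasFDerivAt
  refine (h1.congr_of_eventuallyEq ?_).hasFDerivWithinAt
  filter_upwards [(chartAt (ℂ × ℂ) x).open_target.mem_nhds
    ((chartAt (ℂ × ℂ) x).map_source (mem_chart_source _ x))] with z hz
  change T (chartAt (ℂ × ℂ) x ((chartAt (ℂ × ℂ) x).symm z)) = T z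
  rw [(chartAt (ℂ × ℂ) x).right_inv hz]

theorem hasMFDerivAt_id_symmR (x : X) :
    HasMFDerivAt 𝓘(ℝ, Cm 2) 𝓘(ℝ, ℂ × ℂ) (id : X → X) x (TR.symm : Cm 2 →L[ℝ] (ℂ × ℂ)) := by
  refine ⟨continuousAt_id, ?_⟩
  have h1 : HasFDerivAt (fun z : Cm 2 => TR.symm z) (TR.symm : Cm 2 →L[ℝ] (ℂ × ℂ))
      (extChartAt 𝓘(ℝ, Cm 2) x x) := TR.symm.hasFDerivAt
  refine (h1.congr_of_eventuallyEq ?_).hasFDerivWithinAt
  filter_upwards [(chartAt (Cm 2) x).open_target.mem_nhds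
    ((chartAt (Cm 2) x).map_source (mem_chart_source _ x))] with z hz
  change chartAt (ℂ × ℂ) x ((chartAt (ℂ × ℂ) x).symm (T.symm z)) = T.symm z
  refine (chartAt (ℂ × ℂ) x).right_inv ?_
  have h2 : z ∈ (tr (chartAt (ℂ × ℂ) x)).target := hz
  rw [tr_target] at h2
  exact h2

theorem mdiff_id : MDifferentiable 𝓘(ℂ, ℂ × ℂ) 𝓘(ℂ, Cm 2) (id : X → X) :=
  fun x => (hasMFDerivAt_id x).mdifferentiableAt

theorem mdiff_id_symm : MDifferentiable 𝓘(ℂ, Cm 2) 𝓘(ℂ, ℂ × ℂ) (id : X → X) :=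
  fun x => (hasMFDerivAt_id_symm x).mdifferentiableAt

/-- Functions: holomorphic for one structure iff holomorphic for the other. -/
theorem mdiffOn_fun {f : X → ℂ} {s : Set X} (h : MDifferentiableOn 𝓘(ℂ, Cm 2) 𝓘(ℂ) f s) :
    MDifferentiableOn 𝓘(ℂ, ℂ × ℂ) 𝓘(ℂ) f s :=
  h.comp mdiff_id.mdifferentiableOn (fun _ hx => hx)

/-- Maps to `X`. -/
theorem mdiff_to {f : ℂ → X} (h : MDifferentiable 𝓘(ℂ) 𝓘(ℂ, Cm 2) f) :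
    MDifferentiable 𝓘(ℂ) 𝓘(ℂ, ℂ × ℂ) f :=
  mdiff_id_symm.comp h

/-- The derivative of the inverse of a chart. -/
theorem mfderiv_symm [IsManifold 𝓘(ℂ, ℂ × ℂ) ω X] {e : OpenPartialHomeomorph X (ℂ × ℂ)}
    (he : e ∈ atlas (ℂ × ℂ) X) {z : ℂ × ℂ} (hz : z ∈ e.target) :
    mfderiv 𝓘(ℝ, Cm 2) 𝓘(ℝ, Cm 2) (tr e).symm (T z) =
      ((TR : (ℂ × ℂ) →L[ℝ] Cm 2).comp (mfderiv 𝓘(ℝ, ℂ × ℂ) 𝓘(ℝ, ℂ × ℂ) e.symm z :
        (ℂ × ℂ) →L[ℝ] (ℂ × ℂ))).comp (TR.symm : Cm 2 →L[ℝ] (ℂ × ℂ)) := by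
  have : IsManifold 𝓘(ℝ, ℂ × ℂ) ω X := isManifold_real
  have : IsManifold 𝓘(ℝ, ℂ × ℂ) 1 X := IsManifold.of_le (n := ω) le_top
  have h1 : MDifferentiableAt 𝓘(ℝ, ℂ × ℂ) 𝓘(ℝ, ℂ × ℂ) e.symm z := mdifferentiableAt_atlas_symm he hz
  have h2 : HasMFDerivAt 𝓘(ℝ, Cm 2) 𝓘(ℝ, ℂ × ℂ) (fun w : Cm 2 => TR.symm w) (T z)
      (TR.symm : Cm 2 →L[ℝ] (ℂ × ℂ)) := TR.symm.hasFDerivAt.hasMFDerivAt
  have h3 : TR.symm (T z) = z := TR.symm_apply_apply z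
  have h4 : HasMFDerivAt 𝓘(ℝ, ℂ × ℂ) 𝓘(ℝ, ℂ × ℂ) e.symm (TR.symm (T z))
      (mfderiv 𝓘(ℝ, ℂ × ℂ) 𝓘(ℝ, ℂ × ℂ) e.symm z : (ℂ × ℂ) →L[ℝ] (ℂ × ℂ)) := by
    rw [h3]
    exact h1.hasMFDerivAt
  have h5 := (hasMFDerivAt_idR (e.symm (TR.symm (T z)))).comp (T z) (h4.comp (T z) h2)
  exact h5.mfderiv

end Vale.Agent.P267.Final
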