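import Vale.Agent.P267.H770.Final.Br2

/-!
# Forms and Betti numbers for the two charted structures
-/

open scoped Manifold ContDiff Topology
open Vale.Agent.P272.K Set

noncomputable section

namespace Vale.Agent.P267.Final

variable {X : Type*} [TopologicalSpace X] [ChartedSpace (ℂ × ℂ) X]

attribute [local instance] cs

/-- The same form for charts in `Fin 2 → ℂ`. -/
def toNew {k : ℕ} (a : RForm k X) : Vale.Agent.P267.RForm k X :=
  fun x => (a x : (ℂ × ℂ) [⋀^Fin k]→L[ℝ] ℝ).compContinuousLinearMap (TR.symm : Cm 2 →L[ℝ] (ℂ × ℂ))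

/-- The same form for charts in `ℂ × ℂ`. -/
def toOld {k : ℕ} (a : Vale.Agent.P267.RForm k X) : RForm k X :=
  fun x => (a x : Cm 2 [⋀^Fin k]→L[ℝ] ℝ).compContinuousLinearMap (TR : (ℂ × ℂ) →L[ℝ] Cm 2)

theorem toNew_toOld {k : ℕ} (a : Vale.Agent.P267.RForm k X) : toNew (toOld a) = a := by
  funext x
  refine ContinuousAlternatingMap.ext fun v => ?_
  change (a x : Cm 2 [⋀^Fin k]→L[ℝ] ℝ) (fun i => TR (TR.symm (v i))) = (a x : Cm 2 [⋀^Fin k]→L[ℝ] ℝ) v
  congr 1
  funext i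
  exact TR.apply_symm_apply (v i)

theorem toOld_toNew {k : ℕ} (a : RForm k X) : toOld (toNew a) = a := by
  funext x
  refine ContinuousAlternatingMap.ext fun v => ?_
  change (a x : (ℂ × ℂ) [⋀^Fin k]→L[ℝ] ℝ) (fun i => TR.symm (TR (v i))) =
    (a x : (ℂ × ℂ) [⋀^Fin k]→L[ℝ] ℝ) v
  congr 1

variable [IsManifold 𝓘(ℂ, ℂ × ℂ) ω X]

/-- Coordinate expressions. -/
theorem pull_new {k : ℕ} (a : RForm k X) {e : OpenPartialHomeomorph X (ℂ × ℂ)}
    (he : e ∈ atlas (ℂ × ℂ) X) {w : Cm 2} (hw : T.symm w ∈ e.target) :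
    Vale.Agent.P267.pullForm (tr e).symm (toNew a) w =
      (pullForm e.symm a (T.symm w)).compContinuousLinearMap (TR.symm : Cm 2 →L[ℝ] (ℂ × ℂ)) := by
  have h := mfderiv_symm he hw
  rw [T.apply_symm_apply] at h
  refine ContinuousAlternatingMap.ext fun v => ?_
  change (a (e.symm (T.symm w)) : (ℂ × ℂ) [⋀^Fin k]→L[ℝ] ℝ)
      (fun i => TR.symm ((mfderiv 𝓘(ℝ, Cm 2) 𝓘(ℝ, Cm 2) (tr e).symm w : Cm 2 →L[ℝ] Cm 2) (v i))) =
    (a (e.symm (T.symm w)) : (ℂ × ℂ) [⋀^Fin k]→L[ℝ] ℝ)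
      (fun i => (mfderiv 𝓘(ℝ, ℂ × ℂ) 𝓘(ℝ, ℂ × ℂ) e.symm (T.symm w) : (ℂ × ℂ) →L[ℝ] (ℂ × ℂ))
        (TR.symm (v i)))
  rw [h]
  congr 1

theorem pull_old {k : ℕ} (a : Vale.Agent.P267.RForm k X) {e : OpenPartialHomeomorph X (ℂ × ℂ)}
    (he : e ∈ atlas (ℂ × ℂ) X) {z : ℂ × ℂ} (hz : z ∈ e.target) (v : Fin k → ℂ × ℂ) :
    pullForm e.symm (toOld a) z v = Vale.Agent.P267.pullForm (tr e).symm a (T z) (fun i => TR (v i)) := by
  have h1 : T.symm (T z) = z := T.symm_apply_apply z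
  have h := pull_new (toOld a) he (w := T z) (by rw [h1]; exact hz)
  rw [toNew_toOld, h1] at h
  rw [h]
  change pullForm e.symm (toOld a) z v = pullForm e.symm (toOld a) z (fun i => TR.symm (TR (v i)))
  congr 1

/-- Composition with a linear map, as a linear map. -/
def cl {k : ℕ} {E F : Type*} [NormedAddCommGroup E] [NormedSpace ℝ E] [NormedAddCommGroup F]
    [NormedSpace ℝ F] (L : E →L[ℝ] F) : (F [⋀^Fin k]→L[ℝ] ℝ) →L[ℝ] (E [⋀^Fin k]→L[ℝ] ℝ) :=
  ContinuousAlternatingMap.compContinuousLinearMapCLM L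

theorem smooth_new {k : ℕ} {a : RForm k X} (h : IsSmooth a) : SmoothForm (toNew a) := by
  intro e' he'
  obtain ⟨e, he, rfl⟩ := mem_cs he'
  rw [tr_target]
  have h2 : ContDiffOn ℝ ∞ (fun w => pullForm e.symm a (TR.symm w)) (T.symm ⁻¹' e.target) :=
    (h e he).comp TR.symm.contDiff.contDiffOn (fun w hw => hw)
  have h1 := (cl (k := k) (TR.symm : Cm 2 →L[ℝ] (ℂ × ℂ))).contDiff.comp_contDiffOn h2
  refine h1.congr fun w hw => ?_
  exact pull_new a he hw

theorem smooth_old {k : ℕ} {a : Vale.Agent.P267.RForm k X} (h : SmoothForm a) : IsSmooth (toOld a) := by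
  intro e he
  have h0 := h (tr e) (tr_mem he)
  rw [tr_target] at h0
  have h2 : ContDiffOn ℝ ∞ (fun z => Vale.Agent.P267.pullForm (tr e).symm a (TR z)) e.target :=
    h0.comp TR.contDiff.contDiffOn (fun z hz => by
      change T.symm (T z) ∈ e.target
      rwa [T.symm_apply_apply])
  have h1 := (cl (k := k) (TR : (ℂ × ℂ) →L[ℝ] Cm 2)).contDiff.comp_contDiffOn h2
  refine h1.congr fun z hz => ?_
  refine ContinuousAlternatingMap.ext fun v => ?_
  exact pull_old a he hz v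

theorem ext_new {k : ℕ} {a : RForm k X} (h : IsSmooth a) {e : OpenPartialHomeomorph X (ℂ × ℂ)}
    (he : e ∈ atlas (ℂ × ℂ) X) {w : Cm 2} (hw : T.symm w ∈ e.target) :
    extDeriv (Vale.Agent.P267.pullForm (tr e).symm (toNew a)) w =
      (extDeriv (pullForm e.symm a) (T.symm w)).compContinuousLinearMap
        (TR.symm : Cm 2 →L[ℝ] (ℂ × ℂ)) := by
  have hd : ∀ w : Cm 2, fderiv ℝ (fun w : Cm 2 => TR.symm w) w = (TR.symm : Cm 2 →L[ℝ] (ℂ × ℂ)) :=
    fun w => TR.symm.fderiv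
  have h1 : Vale.Agent.P267.pullForm (tr e).symm (toNew a) =ᶠ[𝓝 w]
      fun w => (pullForm e.symm a (TR.symm w)).compContinuousLinearMap
        (fderiv ℝ (fun w : Cm 2 => TR.symm w) w) := by
    have h2 : T.symm ⁻¹' e.target ∈ 𝓝 w :=
      (e.open_target.preimage T.symm.continuous).mem_nhds hw
    filter_upwards [h2] with w' hw'
    rw [hd]
    exact pull_new a he hw'
  rw [h1.extDeriv_eq]
  have h3 : DifferentiableAt ℝ (pullForm e.symm a) (TR.symm w) :=
    ((h e he).contDiffAt (e.open_target.mem_nhds hw)).differentiableAt (by simp)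
  have h4 := extDeriv_pullback (𝕜 := ℝ) (r := ω) (x := w) (f := fun w : Cm 2 => TR.symm w) h3
    TR.symm.contDiff.contDiffAt (by simp)
  rw [hd] at h4
  exact h4

theorem closed_new {k : ℕ} {a : RForm k X} (h : IsSmooth a) (hc : IsClosed a) :
    H998.Closed (toNew a) := by
  intro e' he' w hw
  obtain ⟨e, he, rfl⟩ := mem_cs he'
  rw [tr_target] at hw
  rw [ext_new h he hw, hc e he _ hw]
  rfl

theorem closed_old {k : ℕ} {a : Vale.Agent.P267.RForm k X} (h : SmoothForm a)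
    (hc : H998.Closed a) : IsClosed (toOld a) := by
  intro e he z hz
  have h1 : T.symm (T z) = z := T.symm_apply_apply z
  have h2 := ext_new (smooth_old h) he (w := T z) (by rw [h1]; exact hz)
  rw [toNew_toOld, h1, hc (tr e) (tr_mem he) (T z) (by
      rw [tr_target]
      change T.symm (T z) ∈ e.target
      rw [h1]
      exact hz)] at h2
  refine ContinuousAlternatingMap.ext fun v => ?_
  have h3 := congrArg (fun f : Cm 2 [⋀^Fin (k + 1)]→L[ℝ] ℝ => f (fun i => TR (v i))) h2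
  have h4 : (extDeriv (pullForm e.symm (toOld a)) z) (fun i => TR.symm (TR (v i))) = 0 := h3.symm
  have h5 : (fun i => TR.symm (TR (v i))) = v := funext fun i => TR.symm_apply_apply (v i)
  rw [h5] at h4
  rw [h4]
  rfl

end Vale.Agent.P267.Final
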