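import Vale.Agent.P267.H770.Final.Br3

/-!
# Betti numbers for the two charted structures
-/

open scoped Manifold ContDiff Topology
open Vale.Agent.P272.K Set

noncomputable section

namespace Vale.Agent.P267.Final

variable {X : Type*} [TopologicalSpace X] [ChartedSpace (ℂ × ℂ) X]

attribute [local instance] cs

theorem pull_comb {k n : ℕ} {c d : Vale.Agent.P267.RForm k X} {t : Fin n → ℝ}
    {a : Fin n → Vale.Agent.P267.RForm k X} (h : H998.IsComb c d t a) (f : Cm 2 → X) (w : Cm 2)
    (v : Fin k → Cm 2) : Vale.Agent.P267.pullForm f c w v =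
      Vale.Agent.P267.pullForm f d w v + ∑ i, t i * Vale.Agent.P267.pullForm f (a i) w v :=
  h (f w) (fun i => (mfderiv 𝓘(ℝ, Cm 2) 𝓘(ℝ, Cm 2) f w : Cm 2 →L[ℝ] Cm 2) (v i))

variable [IsManifold 𝓘(ℂ, ℂ × ℂ) ω X]

theorem pull_new_apply {k : ℕ} (a : RForm k X) {e : OpenPartialHomeomorph X (ℂ × ℂ)}
    (he : e ∈ atlas (ℂ × ℂ) X) {w : Cm 2} (hw : T.symm w ∈ e.target) (v : Fin k → Cm 2) :
    Vale.Agent.P267.pullForm (tr e).symm (toNew a) w v =
      pullForm e.symm a (T.symm w) (fun i => TR.symm (v i)) := by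
  rw [pull_new a he hw]
  rfl

theorem pull_old' {k : ℕ} (a : Vale.Agent.P267.RForm k X) {e : OpenPartialHomeomorph X (ℂ × ℂ)}
    (he : e ∈ atlas (ℂ × ℂ) X) {w : Cm 2} (hw : T.symm w ∈ e.target) (v : Fin k → Cm 2) :
    pullForm e.symm (toOld a) (T.symm w) (fun i => TR.symm (v i)) =
      Vale.Agent.P267.pullForm (tr e).symm a w v := by
  rw [← pull_new_apply (toOld a) he hw, toNew_toOld]

theorem ext_new_apply {k : ℕ} {a : RForm k X} (h : IsSmooth a)
    {e : OpenPartialHomeomorph X (ℂ × ℂ)} (he : e ∈ atlas (ℂ × ℂ) X) {w : Cm 2}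
    (hw : T.symm w ∈ e.target) (v : Fin (k + 1) → Cm 2) :
    extDeriv (Vale.Agent.P267.pullForm (tr e).symm (toNew a)) w v =
      extDeriv (pullForm e.symm a) (T.symm w) (fun i => TR.symm (v i)) := by
  rw [ext_new h he hw]
  rfl

theorem comb_iff {k n : ℕ} {c : Vale.Agent.P267.RForm (k + 1) X} {t : Fin n → ℝ}
    {a : Fin n → RForm (k + 1) X} :
    (∃ b : RForm k X, IsSmooth b ∧ IsComb (toOld c) b t a) ↔
      ∃ d, ExactForm d ∧ H998.IsComb c d t (fun i => toNew (a i)) := by
  constructor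
  · rintro ⟨b, hb, hcb⟩
    have hd : H998.IsComb c (c - ∑ i, t i • toNew (a i)) t (fun i => toNew (a i)) :=
      (H998.isComb_iff c _ t _).2 rfl
    refine ⟨_, ⟨toNew b, smooth_new hb, ?_⟩, hd⟩
    intro e' he' w hw
    obtain ⟨e, he, rfl⟩ := mem_cs he'
    rw [tr_target] at hw
    refine ContinuousAlternatingMap.ext fun v => ?_
    rw [ext_new_apply hb he hw]
    have h1 := hcb e he (T.symm w) hw (fun i => TR.symm (v i))
    rw [pull_old' c he hw] at h1
    have h2 := pull_comb hd (tr e).symm w v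
    have h3 : ∑ i, t i * Vale.Agent.P267.pullForm (tr e).symm (toNew (a i)) w v =
        ∑ i, t i * pullForm e.symm (a i) (T.symm w) (fun i => TR.symm (v i)) :=
      Finset.sum_congr rfl fun i _ => by rw [pull_new_apply (a i) he hw]
    rw [h3, h1] at h2
    linarith
  · rintro ⟨d, ⟨b, hb, hbd⟩, hd⟩
    refine ⟨toOld b, smooth_old hb, ?_⟩
    intro e he z hz v
    have h0 : T.symm (T z) = z := T.symm_apply_apply z
    have hz' : T.symm (T z) ∈ e.target := by rw [h0]; exact hz
    have hv : (fun i => TR.symm (TR (v i))) = v := funext fun i => TR.symm_apply_apply (v i)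
    have h1 := pull_comb hd (tr e).symm (T z) (fun i => TR (v i))
    have h2 := hbd (tr e) (tr_mem he) (T z) (by rw [tr_target]; exact hz')
    rw [← h2, ← pull_old' c he hz'] at h1
    have h3 := ext_new_apply (smooth_old hb) he hz' (fun i => TR (v i))
    rw [toNew_toOld] at h3
    have h4 : ∑ i, t i * Vale.Agent.P267.pullForm (tr e).symm (toNew (a i)) (T z) (fun i => TR (v i)) =
        ∑ i, t i * pullForm e.symm (a i) z v := by
      refine Finset.sum_congr rfl fun i _ => ?_
      rw [pull_new_apply (a i) he hz']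
      simp only [h0, ContinuousLinearEquiv.symm_apply_apply]
    rw [h3, h4] at h1
    simp only [h0, ContinuousLinearEquiv.symm_apply_apply] at h1
    exact h1

/-- The Betti numbers are the same. -/
theorem betti_new {k n : ℕ} (h : BettiSucc X k n) : Vale.Agent.P267.BettiSucc X k n := by
  rw [← H998.bettiSucc_iff]
  obtain ⟨a, ha, hc⟩ := h
  refine ⟨fun i => toNew (a i), fun i => ⟨smooth_new (ha i).1, closed_new (ha i).1 (ha i).2⟩, ?_⟩
  intro c hcs hcc
  have h1 := hc (toOld c) (smooth_old hcs) (closed_old hcs hcc)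
  simpa only [comb_iff] using h1

end Vale.Agent.P267.Final
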