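import Vale.Agent.P267.H770.Final.Br4
import Mathlib.MeasureTheory.Constructions.Pi

/-!
# Pluricanonical forms, divisors, rational curves and shells for the two charted structures
-/

open scoped Manifold ContDiff Topology
open Vale.Agent.P272.K Set MeasureTheory

noncomputable section

namespace Vale.Agent.P267.Final

variable {X : Type*} [TopologicalSpace X] [ChartedSpace (ℂ × ℂ) X]

attribute [local instance] cs

/-! ### Wirtinger derivatives -/

theorem T_symm_single_zero (c : ℂ) : TR.symm (Pi.single 0 c) = (c, 0) := by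
  change ((Pi.single 0 c : Cm 2) 0, (Pi.single 0 c : Cm 2) 1) = _
  simp

theorem T_symm_single_one (c : ℂ) : TR.symm (Pi.single 1 c) = (0, c) := by
  change ((Pi.single 1 c : Cm 2) 0, (Pi.single 1 c : Cm 2) 1) = _
  simp

/-- The vectors `(1, 0)` and `(0, 1)`. -/
def vec (j : Fin 2) : ℂ × ℂ := TR.symm (Pi.single j 1)

theorem vec_zero : vec 0 = (1, 0) := T_symm_single_zero 1
theorem vec_one : vec 1 = (0, 1) := T_symm_single_one 1

theorem I_vec (j : Fin 2) : TR.symm (Pi.single j Complex.I) = Complex.I • vec j := by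
  fin_cases j
  · change TR.symm (Pi.single 0 Complex.I) = Complex.I • vec 0
    rw [T_symm_single_zero, vec_zero]
    simp
  · change TR.symm (Pi.single 1 Complex.I) = Complex.I • vec 1
    rw [T_symm_single_one, vec_one]
    simp

theorem fderiv_T (G : ℂ × ℂ → ℂ) (w v : Cm 2) :
    fderiv ℝ (fun w => G (TR.symm w)) w v = fderiv ℝ G (TR.symm w) (TR.symm v) := by
  have h := TR.symm.comp_right_fderiv (f := G) (x := w)
  change fderiv ℝ (G ∘ TR.symm) w v = _
  rw [h]
  rfl

theorem dz_T (G : ℂ × ℂ → ℂ) (j : Fin 2) (w : Cm 2) :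
    Vale.Agent.P272.K.dz j (fun w => G (TR.symm w)) w = dz (vec j) G (TR.symm w) := by
  unfold Vale.Agent.P272.K.dz dz
  rw [fderiv_T, fderiv_T, I_vec]
  rfl

theorem dzb_T (G : ℂ × ℂ → ℂ) (j : Fin 2) (w : Cm 2) :
    Vale.Agent.P272.K.dzb j (fun w => G (TR.symm w)) w = dzb (vec j) G (TR.symm w) := by
  unfold Vale.Agent.P272.K.dzb dzb
  rw [fderiv_T, fderiv_T, I_vec]
  rfl

theorem cHess_T (u : ℂ × ℂ → ℝ) (w : Cm 2) :
    (cHess (fun w => u (TR.symm w)) w).det = hessDet u (TR.symm w) := by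
  have h : ∀ j k : Fin 2, cHess (fun w => u (TR.symm w)) w j k =
      dz (vec j) (dzb (vec k) fun y => (u y : ℂ)) (TR.symm w) := by
    intro j k
    change Vale.Agent.P272.K.dz j
      (Vale.Agent.P272.K.dzb k fun y => ((u (TR.symm y) : ℝ) : ℂ)) w = _
    have h1 : (Vale.Agent.P272.K.dzb k fun y => ((u (TR.symm y) : ℝ) : ℂ)) =
        fun w => dzb (vec k) (fun y => (u y : ℂ)) (TR.symm w) :=
      funext fun w => dzb_T (fun y => (u y : ℂ)) k w
    rw [h1]
    exact dz_T (dzb (vec k) (fun y => (u y : ℂ))) j w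
  rw [Matrix.det_fin_two, h, h, h, h, vec_zero, vec_one]
  unfold hessDet
  ring

/-! ### integrals -/

theorem integral_T (s : Set (ℂ × ℂ)) (g : ℂ × ℂ → ℝ) :
    ∫ w in T.symm ⁻¹' s, g (T.symm w) = ∫ z in s, g z :=
  (MeasureTheory.volume_preserving_finTwoArrow ℂ).setIntegral_preimage_emb
    (MeasurableEquiv.finTwoArrow (α := ℂ)).measurableEmbedding g s

theorem isIntegral_old {D : Chart 2 X → Cm 2 → ℝ} {D' : OpenPartialHomeomorph X (ℂ × ℂ) → ℂ × ℂ → ℝ}
    (hD : ∀ e z, D' e z = D (tr e) (T z)) {I : ℝ}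
    (h : Vale.Agent.P272.K.IsIntegral D I) : IsIntegral D' I := by
  intro N e ρ he hc hs h1
  rw [← h N (fun i => tr (e i)) ρ (fun i => tr_mem (he i)) hc
    (fun i => by rw [tr_source]; exact hs i) h1]
  refine Finset.sum_congr rfl fun i _ => ?_
  rw [tr_target, ← integral_T]
  congr 1
  funext w
  rw [hD, T.apply_symm_apply]
  rfl

end Vale.Agent.P267.Final
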