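import Vale.Agent.P267.H770.Final.Br5

/-!
# Pluricanonical forms, divisors, rational curves and shells for the two charted structures
-/

open scoped Manifold ContDiff Topology
open Vale.Agent.P272.K Set MeasureTheory

noncomputable section

namespace Vale.Agent.P267.Final

variable {X : Type*} [TopologicalSpace X] [ChartedSpace (ℂ × ℂ) X]

attribute [local instance] cs

/-! ### divisors -/

/-- The same divisor. -/
def oldDiv (D : Vale.Agent.P267.EffDiv X) : EffDiv X where
  U := D.U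
  f := D.f
  isOpen := D.isOpen
  mem := D.mem
  holo x := mdiffOn_fun (D.holo x)
  ne := D.ne
  change x x' := by
    obtain ⟨g, hg, h⟩ := D.change x x'
    exact ⟨g, mdiffOn_fun hg, h⟩

theorem metric_old {D : Vale.Agent.P267.EffDiv X} {h : X → X → ℝ} (hm : D.IsMetric h) :
    (oldDiv D).IsMetric h where
  pos := hm.pos
  change := hm.change
  smooth x y hy e he hye := by
    have h1 := hm.smooth x y hy (tr e) ⟨tr_mem he, by rw [tr_source]; exact hye⟩
    have h2 : ContDiffAt ℝ ∞ (fun z => h x ((tr e).symm (TR z))) (e y) :=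
      ContDiffAt.comp (g := fun w => h x ((tr e).symm w)) (f := fun z => TR z) (e y) h1
        TR.contDiff.contDiffAt
    refine h2.congr_of_eventuallyEq (Filter.Eventually.of_forall fun z => ?_)
    change h x (e.symm z) = h x (e.symm (T.symm (T z)))
    rw [T.symm_apply_apply]

theorem selfInt_old {D : Vale.Agent.P267.EffDiv X} {d : ℝ} (h : D.SelfInt d) :
    (oldDiv D).SelfInt d := by
  obtain ⟨m, hm, hi⟩ := h
  refine ⟨m, metric_old hm, isIntegral_old (fun e z => ?_) hi⟩
  have h1 : (tr e).symm (T z) = e.symm z := by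
    rw [tr_symm_apply, T.symm_apply_apply]
  rw [h1]
  have h2 := cHess_T (fun w => Real.log (m (e.symm z) (e.symm w))) (T z)
  have h3 : TR.symm (T z) = z := TR.symm_apply_apply z
  rw [h3] at h2
  rw [← h2]
  rfl

/-- The same map. -/
def oldP1 (φ : Vale.Agent.P267.P1Map X) : P1Map X where
  f₀ := φ.f₀
  f₁ := φ.f₁
  holo₀ := mdiff_to φ.holo₀
  holo₁ := mdiff_to φ.holo₁
  glue := φ.glue

theorem rational_old {C : Set X} (h : Vale.Agent.P267.IsRationalCurve C) : IsRationalCurve C := by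
  obtain ⟨φ, h1, h2⟩ := h
  exact ⟨oldP1 φ, h1, h2⟩

/-- Shells. -/
theorem hasGSS_old (h : Vale.Agent.P267.HasGSS X) : HasGSS X := by
  obtain ⟨U, F, G, hU, h0, hS, hFU, hF, hG, hGF, hc⟩ := h
  have him : (fun z => F (T z)) '' (T ⁻¹' U) = F '' U := by
    ext x
    constructor
    · rintro ⟨z, hz, rfl⟩
      exact ⟨T z, hz, rfl⟩
    · rintro ⟨w, hw, rfl⟩
      refine ⟨T.symm w, ?_, ?_⟩
      · change T (T.symm w) ∈ U
        rwa [T.apply_symm_apply]
      · change F (T (T.symm w)) = F w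
        rw [T.apply_symm_apply]
  refine ⟨T ⁻¹' U, fun z => F (T z), fun x => T.symm (G x), hU.preimage T.continuous, ?_, ?_, ?_,
    ?_, ?_, ?_, ?_⟩
  · intro h1
    apply h0
    have h2 : T (0, 0) = 0 := by
      funext i
      fin_cases i <;> rfl
    rw [← h2]
    exact h1
  · intro z hz
    exact hS (show ‖T z 0‖ ^ 2 + ‖T z 1‖ ^ 2 = 1 from hz)
  · rw [him]
    exact hFU
  · have h1 : MDifferentiable 𝓘(ℂ, ℂ × ℂ) 𝓘(ℂ, Cm 2) (fun z : ℂ × ℂ => T z) :=
      T.differentiable.mdifferentiable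
    exact mdiff_id_symm.comp_mdifferentiableOn (hF.comp h1.mdifferentiableOn fun z hz => hz)
  · rw [him]
    have h1 : MDifferentiable 𝓘(ℂ, Cm 2) 𝓘(ℂ, ℂ × ℂ) (fun z : Cm 2 => T.symm z) :=
      T.symm.differentiable.mdifferentiable
    exact h1.comp_mdifferentiableOn (hG.comp mdiff_id.mdifferentiableOn fun _ hx => hx)
  · intro z hz
    change T.symm (G (F (T z))) = z
    rw [hGF (T z) hz, T.symm_apply_apply]
  · rw [him]
    exact hc

variable [IsManifold 𝓘(ℂ, ℂ × ℂ) ω X]

theorem smoothRational_old {D : Vale.Agent.P267.EffDiv X} (h : D.IsSmoothRational) :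
    (oldDiv D).IsSmoothRational := by
  have : IsManifold 𝓘(ℂ, Cm 2) ω X := isManifold_cs
  have : IsManifold 𝓘(ℂ, ℂ × ℂ) 1 X := IsManifold.of_le (n := ω) le_top
  rw [← H998.isSmoothRational_iff] at h
  obtain ⟨h1, φ, h2, h3, h4⟩ := h
  refine ⟨?_, oldP1 φ, h2, h3, h4⟩
  intro x y hy h0 e he hye
  obtain ⟨j, hj⟩ := h1 x y hy h0 (tr e) ⟨tr_mem he, by rw [tr_source]; exact hye⟩
  by_contra hcon
  push Not at hcon
  apply hj
  have h5 : Vale.Agent.P272.K.dz j (fun w => D.f x ((tr e).symm w)) (tr e y) =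
      dz (vec j) (fun z => D.f x (e.symm z)) (e y) := by
    have h6 := dz_T (fun z => D.f x (e.symm z)) j (T (e y))
    have h7 : TR.symm (T (e y)) = e y := TR.symm_apply_apply (e y)
    rw [h7] at h6
    exact h6
  rw [h5]
  have hf : MDifferentiableAt 𝓘(ℂ, ℂ × ℂ) 𝓘(ℂ) (D.f x) y :=
    ((oldDiv D).holo x y hy).mdifferentiableAt ((D.isOpen x).mem_nhds hy)
  have h8 : MDifferentiableAt 𝓘(ℂ, ℂ × ℂ) 𝓘(ℂ, ℂ × ℂ) e.symm (e y) :=
    mdifferentiableAt_atlas_symm he (e.map_source hye)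
  have h9 : e.symm (e y) = y := e.left_inv hye
  have h10 : MDifferentiableAt 𝓘(ℂ, ℂ × ℂ) 𝓘(ℂ) (fun z => D.f x (e.symm z)) (e y) :=
    MDifferentiableAt.comp (e y) (by rw [h9]; exact hf) h8
  have h11 : DifferentiableAt ℂ (fun z => D.f x (e.symm z)) (e y) := h10.differentiableAt
  have h12 : fderiv ℝ (fun z => D.f x (e.symm z)) (e y) =
      (fderiv ℂ (fun z => D.f x (e.symm z)) (e y)).restrictScalars ℝ := h11.fderiv_restrictScalars ℝ
  have h13 : ∀ v, fderiv ℝ (fun z => D.f x (e.symm z)) (e y) v = 0 := by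
    intro v
    rw [h12]
    exact hcon v
  unfold dz
  rw [h13, h13]
  simp

theorem minimal_new (h : Minimal X) : Vale.Agent.P267.Minimal X := by
  rintro ⟨D, h1, h2⟩
  exact h ⟨oldDiv D, smoothRational_old h1, selfInt_old h2⟩

end Vale.Agent.P267.Final
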