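import Vale.Agent.P267.H770.Final.Br6
import Mathlib.Topology.Algebra.Module.Determinant

/-!
# P267: the final statements follow from the working ones
-/

open scoped Manifold ContDiff Topology
open Vale.Agent.P272.K Set MeasureTheory

noncomputable section

namespace Vale.Agent.P267.Final

variable {X : Type*} [TopologicalSpace X] [ChartedSpace (ℂ × ℂ) X]

attribute [local instance] cs

variable [IsManifold 𝓘(ℂ, ℂ × ℂ) ω X]

theorem diff_change {e e' : OpenPartialHomeomorph X (ℂ × ℂ)} (he : e ∈ atlas (ℂ × ℂ) X)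
    (he' : e' ∈ atlas (ℂ × ℂ) X) {z : ℂ × ℂ} (hz : z ∈ (e.symm.trans e').source) :
    DifferentiableAt ℂ (fun w => e' (e.symm w)) z := by
  have h : ContDiffOn ℂ ω (𝓘(ℂ, ℂ × ℂ) ∘ (e.symm.trans e') ∘ 𝓘(ℂ, ℂ × ℂ).symm)
      (𝓘(ℂ, ℂ × ℂ).symm ⁻¹' (e.symm.trans e').source ∩ range 𝓘(ℂ, ℂ × ℂ)) :=
    (HasGroupoid.compatible (G := contDiffGroupoid ω 𝓘(ℂ, ℂ × ℂ)) he he').1
  simp only [modelWithCornersSelf_coe, modelWithCornersSelf_coe_symm, Function.comp_id,
    Function.id_comp, preimage_id, range_id, inter_univ] at h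
  exact (h.contDiffAt ((e.symm.trans e').open_source.mem_nhds hz)).differentiableAt (by simp)

/-- The Jacobian determinants agree. -/
theorem det_jac {e e' : OpenPartialHomeomorph X (ℂ × ℂ)} (he : e ∈ atlas (ℂ × ℂ) X)
    (he' : e' ∈ atlas (ℂ × ℂ) X) {z : ℂ × ℂ} (hz : z ∈ (e.symm.trans e').source) :
    (jacM (tr e) (tr e') (e.symm z)).det = (fderiv ℂ (fun w => e' (e.symm w)) z).det := by
  have hzt : z ∈ e.target := by
    rw [OpenPartialHomeomorph.trans_source] at hz
    exact hz.1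
  have h1 : T.symm (T z) = z := T.symm_apply_apply z
  have h2 : tr e (e.symm z) = T z := by rw [tr_apply, e.right_inv hzt]
  have hd := diff_change he he' hz
  -- the derivative of the change of coordinates
  have h3 : HasFDerivAt (fun w : Cm 2 => T (e' (e.symm (T.symm w))))
      (((T : (ℂ × ℂ) →L[ℂ] Cm 2).comp (fderiv ℂ (fun w => e' (e.symm w)) z)).comp
        (T.symm : Cm 2 →L[ℂ] (ℂ × ℂ))) (T z) := by
    have h4 : HasFDerivAt (fun w => e' (e.symm w)) (fderiv ℂ (fun w => e' (e.symm w)) z)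
        (T.symm (T z)) := by
      rw [h1]
      exact hd.hasFDerivAt
    have h5 := h4.comp (T z) T.symm.hasFDerivAt
    exact T.hasFDerivAt.comp (T z) h5
  have h6 : jacM (tr e) (tr e') (e.symm z) = LinearMap.toMatrix'
      ((((T : (ℂ × ℂ) →L[ℂ] Cm 2).comp (fderiv ℂ (fun w => e' (e.symm w)) z)).comp
        (T.symm : Cm 2 →L[ℂ] (ℂ × ℂ)) : Cm 2 →L[ℂ] Cm 2) : Cm 2 →ₗ[ℂ] Cm 2) := by
    ext p i
    rw [LinearMap.toMatrix'_apply]
    change Vale.Agent.P272.K.dz i (fun w => T (e' (e.symm (T.symm w))) p) (tr e (e.symm z)) = _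
    rw [h2]
    have h7 : HasFDerivAt (fun w : Cm 2 => T (e' (e.symm (T.symm w))) p)
        ((ContinuousLinearMap.proj (R := ℂ) (φ := fun _ : Fin 2 => ℂ) p).comp
          (((T : (ℂ × ℂ) →L[ℂ] Cm 2).comp (fderiv ℂ (fun w => e' (e.symm w)) z)).comp
            (T.symm : Cm 2 →L[ℂ] (ℂ × ℂ)))) (T z) :=
      ((ContinuousLinearMap.proj (R := ℂ) (φ := fun _ : Fin 2 => ℂ) p).hasFDerivAt).comp (T z) h3
    rw [H998.dz_eq h7.differentiableAt, h7.fderiv]
    rfl
  rw [h6, LinearMap.det_toMatrix']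
  exact LinearMap.det_conj
    (((fderiv ℂ (fun w => e' (e.symm w)) z : (ℂ × ℂ) →L[ℂ] (ℂ × ℂ))) : (ℂ × ℂ) →ₗ[ℂ] (ℂ × ℂ))
    T.toLinearEquiv

/-- The same pluricanonical form. -/
def oldPluri {m : ℕ} (s : Vale.Agent.P267.PluriForm m X) : PluriForm m X where
  coeff e z := s.coeff (tr e) (T z)
  holo e he := by
    have h := s.holo (tr e) (tr_mem he)
    rw [tr_target] at h
    exact h.comp T.differentiable.differentiableOn fun z hz => by
      change T.symm (T z) ∈ e.target
      rwa [T.symm_apply_apply]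
  change e he e' he' z hz := by
    have hz' := hz
    rw [OpenPartialHomeomorph.trans_source] at hz'
    have h := s.change (tr e) (tr e') (e.symm z)
      ⟨tr_mem he, by rw [tr_source]; exact e.map_target hz'.1⟩
      ⟨tr_mem he', by rw [tr_source]; exact hz'.2⟩
    rw [tr_apply, tr_apply, e.right_inv hz'.1, det_jac he he' hz] at h
    exact h

theorem kod_new (h : KodairaNegInf X) : Vale.Agent.P267.KodairaNegInf X := by
  intro m hm s e' he' w hw
  obtain ⟨e, he, rfl⟩ := mem_cs he'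
  rw [tr_target] at hw
  have h1 := h m hm (oldPluri s) e he (T.symm w) hw
  change s.coeff (tr e) (T (T.symm w)) = 0 at h1
  rwa [T.apply_symm_apply] at h1

theorem minimalVII_new {n : ℕ} (h : IsMinimalVII X n) : Vale.Agent.P267.IsMinimalVII X n where
  b1 := betti_new h.b1
  b2 := betti_new h.b2
  pos := h.pos
  kod := kod_new h.kod
  min := minimal_new h.min

omit [TopologicalSpace X] [ChartedSpace (ℂ × ℂ) X] [IsManifold 𝓘(ℂ, ℂ × ℂ) ω X]

/-- The final form of the GSS conjecture follows from the working form. -/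
theorem gss_of (h : Vale.Agent.P267.GSSConjecture) : GSSConjecture := by
  intro X _ _ _ _ _ _ n hX
  have : IsManifold 𝓘(ℂ, Cm 2) ω X := isManifold_cs
  exact hasGSS_old (h X n (minimalVII_new hX))

/-- The final form of the statement on curves follows from the working form. -/
theorem curves_of (h : Vale.Agent.P267.CurvesStatement) : CurvesStatement := by
  intro X _ _ _ _ _ _ n hX
  have : IsManifold 𝓘(ℂ, Cm 2) ω X := isManifold_cs
  obtain ⟨C, h1, h2⟩ := h X n (minimalVII_new hX)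
  exact ⟨C, h1, fun i => rational_old (h2 i)⟩

end Vale.Agent.P267.Final
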